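import Vale.Agent.P337.ZeroInst
import Vale.Agent.P337.Zero

namespace Vale.Agent.Results.P337.InCH

open Vale.Agent.P337

theorem result : ∃ j, ETR ∈ Level j := etr_of_core zero_core

end Vale.Agent.Results.P337.InCH
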